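import Vale.Agent.P015.H938.Cells

/-! The blocks of a piece of the path. -/

namespace Vale.Agent.P015.H938

open Finset Vale.Agent.P006.CLS Vale.Agent.P015.R2.H116

/-- block `j` of `l` points, translated by `-z` -/
def blk (g : ℕ → ℤ × ℤ) (l : ℕ) (z : ℤ × ℤ) (j : ℕ) : Finset (ℤ × ℤ) :=
  (range l).image fun i => g (j * l + i) - z

theorem mem_blk {g : ℕ → ℤ × ℤ} {l : ℕ} {z : ℤ × ℤ} {j : ℕ} {w : ℤ × ℤ} :
    w ∈ blk g l z j ↔ ∃ i < l, g (j * l + i) - z = w := by
  simp [blk]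

theorem card_blk {g : ℕ → ℤ × ℤ} (hinj : Function.Injective g) (l : ℕ) (z : ℤ × ℤ) (j : ℕ) :
    (blk g l z j).card = l := by
  rw [blk, Finset.card_image_of_injective, Finset.card_range]
  intro i i' h
  simp only [sub_left_inj] at h
  have := hinj h
  omega

theorem disj_blk {g : ℕ → ℤ × ℤ} (hinj : Function.Injective g) (l : ℕ) (z : ℤ × ℤ) {j j' : ℕ}
    (h : j ≠ j') : Disjoint (blk g l z j) (blk g l z j') := by
  rw [Finset.disjoint_left]
  intro w hw hw'
  obtain ⟨i, hi, hiw⟩ := mem_blk.1 hw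
  obtain ⟨i', hi', hiw'⟩ := mem_blk.1 hw'
  rw [← hiw'] at hiw
  have h1 : j * l + i = j' * l + i' := hinj (by simpa using hiw)
  apply h
  have h2 : (j * l + i) / l = j := by
    rw [mul_comm, Nat.mul_add_div (by omega), Nat.div_eq_of_lt hi, add_zero]
  have h3 : (j' * l + i') / l = j' := by
    rw [mul_comm, Nat.mul_add_div (by omega), Nat.div_eq_of_lt hi', add_zero]
  rw [← h2, ← h3, h1]

theorem box_mono {L L' : ℕ} (h : L ≤ L') {w : ℤ × ℤ} (hw : w ∈ box L) : w ∈ box L' := by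
  have : (L : ℤ) ≤ L' := by exact_mod_cast h
  rw [mem_bx] at *
  omega

theorem diam_blk {g : ℕ → ℤ × ℤ} {D : ℕ} (hD : ∀ n, g (n + 1) - g n ∈ box D) (l : ℕ)
    (z : ℤ × ℤ) (j : ℕ) {w w' : ℤ × ℤ} (hw : w ∈ blk g l z j) (hw' : w' ∈ blk g l z j) :
    w - w' ∈ box (l * D) := by
  obtain ⟨i, hi, hiw⟩ := mem_blk.1 hw
  obtain ⟨i', hi', hiw'⟩ := mem_blk.1 hw'
  rcases le_total i i' with h | h
  · have h1 := steps hD (j * l + i) (i' - i)
    rw [show j * l + i + (i' - i) = j * l + i' by omega] at h1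
    have h2 : g (j * l + i') - g (j * l + i) ∈ box (l * D) :=
      box_mono (Nat.mul_le_mul_right _ (by omega)) h1
    rw [← hiw, ← hiw']
    rw [mem_bx] at *
    simp only [Prod.fst_sub, Prod.snd_sub] at *
    omega
  · have h1 := steps hD (j * l + i') (i - i')
    rw [show j * l + i' + (i - i') = j * l + i by omega] at h1
    have h2 : g (j * l + i) - g (j * l + i') ∈ box (l * D) :=
      box_mono (Nat.mul_le_mul_right _ (by omega)) h1
    rw [← hiw, ← hiw']
    rw [mem_bx] at *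
    simp only [Prod.fst_sub, Prod.snd_sub] at *
    omega

/-- **The cutting lemma**: the good blocks of a piece, moved to the origin. -/
theorem cut_piece {g : ℕ → ℤ × ℤ} (hinj : Function.Injective g) {D : ℕ} (hD1 : 1 ≤ D)
    (hD : ∀ n, g (n + 1) - g n ∈ box D) {l : ℕ} (hl : 0 < l) (K N : ℕ) (G : Finset ℕ)
    (hG : N + 2 * (2 * K + 1) ^ 2 < 2 * (G.filter (fun j => j < N)).card) :
    ∃ (z : ℤ × ℤ) (G' : Finset ℕ), G' ⊆ G ∧ (∀ j ∈ G', j < N) ∧ G'.Nonempty ∧
      (∀ j ∈ G', ∀ w ∈ blk g l z j, w ∈ box (K + l * D)) ∧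
      K < 2 * D * (l * G'.card) ∧
      ∀ m, 1 ≤ m → m * ((G'.biUnion (blk g l z)).image (cell m)).card ≤
        9 * (4 * D * (l * G'.card) + m) := by
  obtain ⟨a, b, hab, hbN, hc, hbox, hK⟩ := cut hinj hD hl K N G hG
  set G' := G.filter (fun j => a ≤ j ∧ j < b) with hG'
  have hT : (b - a) * l ≤ 2 * (l * G'.card) := by
    calc (b - a) * l ≤ (2 * G'.card) * l := Nat.mul_le_mul_right _ hc
      _ = 2 * (l * G'.card) := by ring
  have hpt : ∀ j ∈ G', ∀ i < l, a * l ≤ j * l + i ∧ j * l + i < b * l := by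
    intro j hj i hi
    have h1 := (Finset.mem_filter.1 hj).2
    have h2 : a * l ≤ j * l := Nat.mul_le_mul_right _ h1.1
    have h3 : (j + 1) * l ≤ b * l := Nat.mul_le_mul_right _ (by omega)
    have h4 : (j + 1) * l = j * l + l := by ring
    omega
  refine ⟨g (a * l), G', Finset.filter_subset _ _, ?_, ?_, ?_, ?_, ?_⟩
  · intro j hj
    have h1 := (Finset.mem_filter.1 hj).2
    omega
  · rw [← Finset.card_pos]
    omega
  · intro j hj w hw
    obtain ⟨i, hi, hiw⟩ := mem_blk.1 hw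
    obtain ⟨h1, h2⟩ := hpt j hj i hi
    rw [← hiw]
    exact hbox _ h1 h2
  · calc K < (b - a) * l * D := hK
      _ ≤ 2 * (l * G'.card) * D := Nat.mul_le_mul_right _ hT
      _ = 2 * D * (l * G'.card) := by ring
  · intro m hm
    have h1 := cells_le hD hD1 (a * l) ((b - a) * l) (G'.biUnion (blk g l (g (a * l))))
      (g (a * l)) (by
        intro w hw
        obtain ⟨j, hj, hw⟩ := Finset.mem_biUnion.1 hw
        obtain ⟨i, hi, hiw⟩ := mem_blk.1 hw
        obtain ⟨h1, h2⟩ := hpt j hj i hi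
        refine ⟨j * l + i, h1, ?_, hiw.symm⟩
        have h5 : a * l + (b - a) * l = b * l := by
          rw [← add_mul]
          congr 1
          omega
        omega) hm
    refine h1.trans ?_
    have h2 : 2 * D * ((b - a) * l) ≤ 4 * D * (l * G'.card) := by
      calc 2 * D * ((b - a) * l) ≤ 2 * D * (2 * (l * G'.card)) := Nat.mul_le_mul_left _ hT
        _ = 4 * D * (l * G'.card) := by ring
    omega

end Vale.Agent.P015.H938
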