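import Vale.Agent.P015.H938.Piece

/-! Number of grid cells visited by a path. -/

namespace Vale.Agent.P015.H938

open Finset Vale.Agent.P006.CLS Vale.Agent.P015.R2.H116

theorem cell_near {m : ℕ} (hm : 1 ≤ m) {u v : ℤ × ℤ} (h : u - v ∈ box m) :
    cell m u - cell m v ∈ Finset.Icc (-1 : ℤ) 1 ×ˢ Finset.Icc (-1 : ℤ) 1 := by
  have hm' : (0 : ℤ) < m := by exact_mod_cast hm
  rw [mem_bx] at h
  simp only [Prod.fst_sub, Prod.snd_sub] at h
  have key : ∀ x y : ℤ, -(m : ℤ) ≤ x - y → x - y ≤ m → -1 ≤ x / m - y / m ∧ x / m - y / m ≤ 1 := by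
    intro x y h1 h2
    have a1 := Int.emod_add_mul_ediv x m
    have a2 := Int.emod_nonneg x hm'.ne'
    have a3 := Int.emod_lt_of_pos x hm'
    have b1 := Int.emod_add_mul_ediv y m
    have b2 := Int.emod_nonneg y hm'.ne'
    have b3 := Int.emod_lt_of_pos y hm'
    constructor
    · by_contra hc
      have : x / m - y / m ≤ -2 := by omega
      nlinarith
    · by_contra hc
      have : 2 ≤ x / m - y / m := by omega
      nlinarith
  rw [Finset.mem_product, Finset.mem_Icc, Finset.mem_Icc]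
  simp only [cell, Prod.fst_sub, Prod.snd_sub]
  exact ⟨key _ _ h.1.1 h.1.2, key _ _ h.2.1 h.2.2⟩

/-- **Cells**: a path of `T` points meets few grid cells of side `m`. -/
theorem cells_le {g : ℕ → ℤ × ℤ} {D : ℕ} (hD : ∀ n, g (n + 1) - g n ∈ box D) (hD1 : 1 ≤ D)
    (A T : ℕ) (W : Finset (ℤ × ℤ)) (z : ℤ × ℤ)
    (hW : ∀ w ∈ W, ∃ i, A ≤ i ∧ i < A + T ∧ w = g i - z) {m : ℕ} (hm : 1 ≤ m) :
    m * (W.image (cell m)).card ≤ 9 * (2 * D * T + m) := by
  obtain ⟨s, hs1, hs2, hs3⟩ : ∃ s : ℕ, 1 ≤ s ∧ (s - 1) * D ≤ m ∧ m ≤ 2 * s * D := by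
    rcases Nat.lt_or_ge m D with h | h
    · exact ⟨1, le_rfl, by simp, by omega⟩
    · refine ⟨m / D, ?_, ?_, ?_⟩
      · exact (Nat.one_le_div_iff (by omega)).2 h
      · refine le_trans (Nat.mul_le_mul_right _ (Nat.sub_le _ _)) ?_
        exact Nat.div_mul_le_self m D
      · have h1 := Nat.lt_div_mul_add (a := m) (show 0 < D by omega)
        have h2 : 1 ≤ m / D := (Nat.one_le_div_iff (by omega)).2 h
        have h3 : D ≤ m / D * D := Nat.le_mul_of_pos_left _ h2
        nlinarith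
  set E : Finset (ℤ × ℤ) := Finset.Icc (-1 : ℤ) 1 ×ˢ Finset.Icc (-1 : ℤ) 1 with hE
  have hEc : E.card = 9 := by rw [hE]; rfl
  have hsub : W.image (cell m) ⊆ (Finset.range (T / s + 1) ×ˢ E).image
      (fun x => cell m (g (A + x.1 * s) - z) + x.2) := by
    intro c hc
    obtain ⟨w, hw, hwc⟩ := Finset.mem_image.1 hc
    obtain ⟨i, hi1, hi2, hi3⟩ := hW w hw
    rw [Finset.mem_image]
    have hq : (i - A) / s < T / s + 1 := by
      have : (i - A) / s ≤ T / s := Nat.div_le_div_right (by omega)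
      omega
    have h4 := steps hD (A + (i - A) / s * s) ((i - A) % s)
    have h5 : A + (i - A) / s * s + (i - A) % s = i := by
      have := Nat.div_add_mod (i - A) s
      have e : (i - A) / s * s = s * ((i - A) / s) := mul_comm _ _
      rw [e]
      omega
    rw [h5] at h4
    have h6 : (i - A) % s * D ≤ m := by
      refine le_trans (Nat.mul_le_mul_right _ ?_) hs2
      have := Nat.mod_lt (i - A) (show 0 < s by omega)
      omega
    have h7 : (g i - z) - (g (A + (i - A) / s * s) - z) ∈ box m := by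
      have h8 : (((i - A) % s * D : ℕ) : ℤ) ≤ m := by exact_mod_cast h6
      rw [mem_bx] at *
      simp only [Prod.fst_sub, Prod.snd_sub] at *
      omega
    refine ⟨((i - A) / s, cell m (g i - z) - cell m (g (A + (i - A) / s * s) - z)), ?_, ?_⟩
    · rw [Finset.mem_product, Finset.mem_range]
      exact ⟨hq, cell_near hm h7⟩
    · rw [← hwc, hi3]
      simp only
      abel
  have h1 : (W.image (cell m)).card ≤ (T / s + 1) * 9 := by
    refine (Finset.card_le_card hsub).trans (Finset.card_image_le.trans ?_)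
    rw [Finset.card_product, Finset.card_range, hEc]
  have h2 : m * (T / s) ≤ 2 * D * T := by
    calc m * (T / s) ≤ (2 * s * D) * (T / s) := Nat.mul_le_mul_right _ hs3
      _ = 2 * D * (s * (T / s)) := by ring
      _ ≤ 2 * D * T := Nat.mul_le_mul_left _ (Nat.mul_div_le T s)
  calc m * (W.image (cell m)).card ≤ m * ((T / s + 1) * 9) := Nat.mul_le_mul_left _ h1
    _ = 9 * (m * (T / s) + m) := by ring
    _ ≤ 9 * (2 * D * T + m) := by gcongr

end Vale.Agent.P015.H938
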