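import Vale.Agent.P006.CLS.Add
import Vale.Agent.P015.R2.H116.Defs

/-! Cutting a long path into pieces at block boundaries. -/

namespace Vale.Agent.P015.H938

open Finset Vale.Agent.P006.CLS Vale.Agent.P015.R2.H116

/-- If no piece has at least half of its members in `G`, then `G` is small. -/
theorem count_pieces (N M : ℕ) (G : Finset ℕ) (stop : ℕ → ℕ → Prop)
    (h : ∀ a < N, N ≤ a + M ∨ ∃ b, a < b ∧ b ≤ N ∧ stop a b)
    (hno : ∀ a b, a < b → b ≤ N → stop a b →
      2 * (G.filter (fun j => a ≤ j ∧ j < b)).card < b - a) :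
    ∀ k a, a ≤ N → N - a ≤ k → 2 * (G.filter (fun j => a ≤ j ∧ j < N)).card ≤ (N - a) + 2 * M := by
  intro k
  induction k with
  | zero =>
    intro a ha hk
    have : G.filter (fun j => a ≤ j ∧ j < N) = ∅ := by
      rw [Finset.filter_eq_empty_iff]
      intro j _
      omega
    rw [this]
    simp
  | succ k ih =>
    intro a ha hk
    rcases Nat.lt_or_ge a N with haN | haN
    · rcases h a haN with hM | ⟨b, hab, hbN, hs⟩
      · have h1 : (G.filter (fun j => a ≤ j ∧ j < N)).card ≤ N - a := by
          refine (Finset.card_le_card (t := Finset.Ico a N) ?_).trans (by simp)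
          intro j hj
          rw [Finset.mem_filter] at hj
          rw [Finset.mem_Ico]
          exact hj.2
        omega
      · have h1 := hno a b hab hbN hs
        have h2 := ih b hbN (by omega)
        have h3 : (G.filter (fun j => a ≤ j ∧ j < N)).card ≤
            (G.filter (fun j => a ≤ j ∧ j < b)).card + (G.filter (fun j => b ≤ j ∧ j < N)).card := by
          refine (Finset.card_le_card ?_).trans (Finset.card_union_le _ _)
          intro j hj
          rw [Finset.mem_filter] at hj
          rw [Finset.mem_union, Finset.mem_filter, Finset.mem_filter]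
          by_cases hjb : j < b
          · exact Or.inl ⟨hj.1, hj.2.1, hjb⟩
          · exact Or.inr ⟨hj.1, not_lt.1 hjb, hj.2.2⟩
        omega
    · have : G.filter (fun j => a ≤ j ∧ j < N) = ∅ := by
        rw [Finset.filter_eq_empty_iff]
        intro j _
        omega
      rw [this]
      simp

/-- A piece with at least half of its members in `G`. -/
theorem exists_piece (N M : ℕ) (G : Finset ℕ) (stop : ℕ → ℕ → Prop)
    (h : ∀ a < N, N ≤ a + M ∨ ∃ b, a < b ∧ b ≤ N ∧ stop a b)
    (hG : N + 2 * M < 2 * (G.filter (fun j => j < N)).card) :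
    ∃ a b, a < b ∧ b ≤ N ∧ stop a b ∧
      b - a ≤ 2 * (G.filter (fun j => a ≤ j ∧ j < b)).card := by
  by_contra hcon
  push Not at hcon
  have h1 := count_pieces N M G stop h (fun a b hab hbN hs => by
    have := hcon a b hab hbN hs
    omega) N 0 (Nat.zero_le _) (by omega)
  have h2 : G.filter (fun j => 0 ≤ j ∧ j < N) = G.filter (fun j => j < N) := by
    apply Finset.filter_congr
    intro j _
    simp
  rw [h2] at h1
  omega

theorem mem_bx {L : ℕ} {w : ℤ × ℤ} :
    w ∈ box L ↔ (-(L : ℤ) ≤ w.1 ∧ w.1 ≤ L) ∧ (-(L : ℤ) ≤ w.2 ∧ w.2 ≤ L) := by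
  unfold Vale.Agent.P006.CLS.box
  rw [Finset.mem_product, Finset.mem_Icc, Finset.mem_Icc]

theorem card_bx (L : ℕ) : (box L).card = (2 * L + 1) ^ 2 := by
  unfold Vale.Agent.P006.CLS.box
  rw [Finset.card_product, Int.card_Icc, sq]
  congr 1 <;> omega

theorem steps {g : ℕ → ℤ × ℤ} {D : ℕ} (hD : ∀ n, g (n + 1) - g n ∈ box D) (i k : ℕ) :
    g (i + k) - g i ∈ box (k * D) := by
  induction k with
  | zero => rw [mem_bx]; simp
  | succ k ih =>
    have h1 := hD (i + k)
    rw [mem_bx] at *
    simp only [Prod.fst_sub, Prod.snd_sub] at *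
    rw [show i + (k + 1) = i + k + 1 by omega]
    push_cast
    have e : ((k : ℤ) + 1) * D = k * D + D := by ring
    rw [e]
    push_cast at ih
    omega

/-- The path leaves a box: a first block whose starting point is outside the box. -/
theorem exists_stop {g : ℕ → ℤ × ℤ} (hinj : Function.Injective g) {l : ℕ} (hl : 0 < l)
    (K N : ℕ) (a : ℕ) (ha : a < N) :
    N ≤ a + (2 * K + 1) ^ 2 ∨ ∃ b, a < b ∧ b ≤ N ∧
      (g (b * l) - g (a * l) ∉ box K ∧ ∀ j, a ≤ j → j < b → g (j * l) - g (a * l) ∈ box K) := by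
  rcases Nat.lt_or_ge (a + (2 * K + 1) ^ 2) N with h | h
  · right
    have hex : ∃ b, a < b ∧ g (b * l) - g (a * l) ∉ box K ∧ b ≤ N := by
      by_contra hcon
      push Not at hcon
      have h1 : ∀ j ∈ Finset.Icc a N, g (j * l) - g (a * l) ∈ box K := by
        intro j hj
        rw [Finset.mem_Icc] at hj
        rcases hj.1.eq_or_lt with h2 | h2
        · rw [← h2, mem_bx]
          simp
        · by_contra h3
          exact absurd hj.2 (not_le.2 (hcon j h2 h3))
      have h2 := Finset.card_le_card_of_injOn (s := Finset.Icc a N) (t := box K)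
        (fun j => g (j * l) - g (a * l)) h1 (by
          intro i _ j _ hij
          simp only [sub_left_inj] at hij
          exact Nat.eq_of_mul_eq_mul_right hl (hinj hij))
      rw [card_bx, Nat.card_Icc] at h2
      omega
    classical
    refine ⟨Nat.find hex, (Nat.find_spec hex).1, (Nat.find_spec hex).2.2,
      (Nat.find_spec hex).2.1, fun j hj1 hj2 => ?_⟩
    rcases hj1.eq_or_lt with h2 | h2
    · rw [← h2, mem_bx]
      simp
    · by_contra h3
      exact Nat.find_min hex hj2 ⟨h2, h3, by have := (Nat.find_spec hex).2.2; omega⟩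
  · exact Or.inl h

/-- **Cutting**: a piece of the path at block boundaries, with at least half of the blocks good. -/
theorem cut {g : ℕ → ℤ × ℤ} (hinj : Function.Injective g) {D : ℕ}
    (hD : ∀ n, g (n + 1) - g n ∈ box D) {l : ℕ} (hl : 0 < l) (K N : ℕ) (G : Finset ℕ)
    (hG : N + 2 * (2 * K + 1) ^ 2 < 2 * (G.filter (fun j => j < N)).card) :
    ∃ a b, a < b ∧ b ≤ N ∧ b - a ≤ 2 * (G.filter (fun j => a ≤ j ∧ j < b)).card ∧
      (∀ i, a * l ≤ i → i < b * l → g i - g (a * l) ∈ box (K + l * D)) ∧
      K < (b - a) * l * D := by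
  obtain ⟨a, b, hab, hbN, ⟨hs1, hs2⟩, hc⟩ := exists_piece N ((2 * K + 1) ^ 2) G
    (fun a b => g (b * l) - g (a * l) ∉ box K ∧ ∀ j, a ≤ j → j < b → g (j * l) - g (a * l) ∈ box K)
    (fun a ha => exists_stop hinj hl K N a ha) hG
  refine ⟨a, b, hab, hbN, hc, fun i hi1 hi2 => ?_, ?_⟩
  · have h1 : a ≤ i / l := (Nat.le_div_iff_mul_le hl).2 hi1
    have h2 : i / l < b := (Nat.div_lt_iff_lt_mul hl).2 hi2
    have h3 := hs2 (i / l) h1 h2
    have h4 := steps hD (i / l * l) (i % l)
    have h5 : i / l * l + i % l = i := by rw [mul_comm]; exact Nat.div_add_mod i l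
    rw [h5] at h4
    have h6 : i % l * D ≤ l * D := Nat.mul_le_mul_right _ (Nat.mod_lt i hl).le
    have h7 : ((i % l * D : ℕ) : ℤ) ≤ ((l * D : ℕ) : ℤ) := by exact_mod_cast h6
    rw [mem_bx] at *
    simp only [Prod.fst_sub, Prod.snd_sub] at *
    push_cast at *
    omega
  · by_contra hcon
    rw [not_lt] at hcon
    apply hs1
    have h4 := steps hD (a * l) ((b - a) * l)
    have h5 : a * l + (b - a) * l = b * l := by
      rw [← add_mul]
      congr 1
      omega
    rw [h5] at h4
    have h7 : (((b - a) * l * D : ℕ) : ℤ) ≤ (K : ℤ) := by exact_mod_cast hcon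
    rw [mem_bx] at *
    simp only [Prod.fst_sub, Prod.snd_sub] at *
    omega

end Vale.Agent.P015.H938
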